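import Mathlib

namespace Vale.Agent.Results.P039.SquareLinked

open SimpleGraph

variable {V ι : Type*}

/-- The sides of the squares `q i 0, q i 1, q i 2, q i 3`. -/
def sides (q : ι → Fin 4 → V) : SimpleGraph V :=
  SimpleGraph.fromRel fun x y => ∃ i j, x = q i j ∧ y = q i (j + 1)

lemma sides_adj {q : ι → Fin 4 → V} {x y : V} : (sides q).Adj x y ↔
    x ≠ y ∧ ∃ i j, (x = q i j ∧ y = q i (j + 1)) ∨ (y = q i j ∧ x = q i (j + 1)) := by
  simp only [sides, fromRel_adj]
  constructor
  · rintro ⟨h, ⟨i, j, hij⟩ | ⟨i, j, hij⟩⟩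
    · exact ⟨h, i, j, Or.inl hij⟩
    · exact ⟨h, i, j, Or.inr hij⟩
  · rintro ⟨h, i, j, hij | hij⟩
    · exact ⟨h, Or.inl ⟨i, j, hij⟩⟩
    · exact ⟨h, Or.inr ⟨i, j, hij⟩⟩

/-- The two sides `01` and `23` belong to `F`, the other two do not. -/
def Marked (F : SimpleGraph V) (s : Fin 4 → V) : Prop :=
  F.Adj (s 0) (s 1) ∧ F.Adj (s 2) (s 3) ∧ ¬ F.Adj (s 1) (s 2) ∧ ¬ F.Adj (s 3) (s 0)

lemma cycle_of_connected [Fintype V] [DecidableEq V] {F : SimpleGraph V}
    (hF : ∀ v, (F.neighborSet v).ncard = 2) (hc : F.Connected) :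
    F.IsHamiltonian := by
  obtain ⟨v⟩ := hc.nonempty
  have hcyc : F.IsCycles := fun w _ => hF w
  have hv : v ∈ (F.connectedComponentMk v).supp := rfl
  obtain ⟨p, hp, hpv⟩ := hcyc.exists_cycle_toSubgraph_verts_eq_connectedComponentSupp hv
    (Set.nonempty_of_ncard_ne_zero (by rw [hF v]; norm_num))
  intro _
  refine ⟨v, p, Walk.isHamiltonianCycle_iff_isCycle_and_length_eq.2 ⟨hp, ?_⟩⟩
  have hall : ∀ w, w ∈ p.support.tail := fun w => by
    have hw : w ∈ p.support := by
      rw [← Walk.mem_verts_toSubgraph, hpv]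
      exact ConnectedComponent.eq.2 (hc.preconnected w v)
    rcases (Walk.mem_support_iff p).1 hw with rfl | h
    · exact p.end_mem_tail_support hp.not_nil
    · exact h
  calc p.length = p.support.tail.length := by simp
    _ = p.support.tail.toFinset.card := (List.toFinset_card_of_nodup hp.support_nodup).symm
    _ = Fintype.card V := by
        rw [Finset.eq_univ_of_forall fun w => List.mem_toFinset.2 (hall w), Finset.card_univ]

/-- Exchange the sides `ab`, `cd` for `bc`, `da`. -/
def swapSides (F : SimpleGraph V) (a b c d : V) : SimpleGraph V :=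
  F.deleteEdges {s(a, b), s(c, d)} ⊔ fromEdgeSet {s(b, c), s(d, a)}

lemma swapSides_adj (F : SimpleGraph V) (a b c d x y : V) : (swapSides F a b c d).Adj x y ↔
    (F.Adj x y ∧ ¬ ((x = a ∧ y = b ∨ x = b ∧ y = a) ∨ (x = c ∧ y = d ∨ x = d ∧ y = c))) ∨
      (((x = b ∧ y = c ∨ x = c ∧ y = b) ∨ (x = d ∧ y = a ∨ x = a ∧ y = d)) ∧ x ≠ y) := by
  simp only [swapSides, sup_adj, deleteEdges_adj, fromEdgeSet_adj, Set.mem_insert_iff,
    Set.mem_singleton_iff, Sym2.eq_iff]

lemma swapSides_of_notMem (F : SimpleGraph V) {a b c d x y : V} (hx : x ≠ a ∧ x ≠ b ∧ x ≠ c ∧ x ≠ d) :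
    (swapSides F a b c d).Adj x y ↔ F.Adj x y := by
  rw [swapSides_adj]
  simp [hx.1, hx.2.1, hx.2.2.1, hx.2.2.2]

lemma swapSides_rot (F : SimpleGraph V) (a b c d : V) :
    swapSides F a b c d = swapSides F c d a b := by
  ext x y
  rw [swapSides_adj, swapSides_adj]
  tauto

lemma swapSides_refl (F : SimpleGraph V) (a b c d : V) :
    swapSides F a b c d = swapSides F b a d c := by
  ext x y
  rw [swapSides_adj, swapSides_adj]
  tauto

lemma ncard_swapSides_fst [Fintype V] {F : SimpleGraph V} (hF : ∀ v, (F.neighborSet v).ncard = 2)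
    {a b c d : V} (hab : F.Adj a b) (hda : ¬ F.Adj d a) (nac : a ≠ c) (nad : a ≠ d) :
    ((swapSides F a b c d).neighborSet a).ncard = 2 := by
  have nab : a ≠ b := hab.ne
  have h : (swapSides F a b c d).neighborSet a = insert d (F.neighborSet a \ {b}) := by
    ext y
    simp only [mem_neighborSet, swapSides_adj, Set.mem_insert_iff, Set.mem_sdiff,
      Set.mem_singleton_iff]
    grind
  rw [h, Set.ncard_insert_of_notMem (fun h => hda (h.1 : F.Adj a d).symm) (Set.toFinite _),
    Set.ncard_sdiff_singleton_of_mem (show b ∈ F.neighborSet a from hab), hF a]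

lemma ncard_swapSides [Fintype V] {F : SimpleGraph V} (hF : ∀ v, (F.neighborSet v).ncard = 2)
    {a b c d : V} (hab : F.Adj a b) (hcd : F.Adj c d) (hbc : ¬ F.Adj b c) (hda : ¬ F.Adj d a)
    (nac : a ≠ c) (nad : a ≠ d) (nbc : b ≠ c) (nbd : b ≠ d) (v : V) :
    ((swapSides F a b c d).neighborSet v).ncard = 2 := by
  by_cases h1 : v = a
  · subst h1; exact ncard_swapSides_fst hF hab hda nac nad
  by_cases h2 : v = b
  · subst h2
    rw [swapSides_refl]
    exact ncard_swapSides_fst hF hab.symm (fun h => hbc h.symm) nbd nbc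
  by_cases h3 : v = c
  · subst h3
    rw [swapSides_rot]
    exact ncard_swapSides_fst hF hcd hbc nac.symm nbc.symm
  by_cases h4 : v = d
  · subst h4
    rw [swapSides_rot, swapSides_refl]
    exact ncard_swapSides_fst hF hcd.symm (fun h => hda h.symm) nbd.symm nad.symm
  · rw [show (swapSides F a b c d).neighborSet v = F.neighborSet v from
      Set.ext fun y => swapSides_of_notMem F ⟨h1, h2, h3, h4⟩]
    exact hF v

lemma marked_swapSides {F : SimpleGraph V} {a b c d : V} (nab : a ≠ b) (nac : a ≠ c) (nad : a ≠ d)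
    (nbc : b ≠ c) (nbd : b ≠ d) (ncd : c ≠ d) :
    (swapSides F a b c d).Adj b c ∧ (swapSides F a b c d).Adj d a ∧
      ¬ (swapSides F a b c d).Adj c d ∧ ¬ (swapSides F a b c d).Adj a b := by
  simp only [swapSides_adj]
  refine ⟨by simp [nbc], by simp [nad.symm], ?_, ?_⟩ <;>
    simp [nab, nac, nad, nbc, nbd, ncd, nab.symm, nac.symm, nad.symm, nbc.symm, nbd.symm,
      ncd.symm]

/-- Squares joining all the cycles of a two-regular spanning subgraph give a Hamiltonian cycle. -/
lemma hamiltonian_of_linked [Fintype V] [DecidableEq V] (G : SimpleGraph V) :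
    ∀ (m : ℕ) (F : SimpleGraph V) (q : ι → Fin 4 → V), Nat.card F.ConnectedComponent ≤ m →
      F ≤ G → (∀ v, (F.neighborSet v).ncard = 2) →
      Function.Injective (fun x : ι × Fin 4 => q x.1 x.2) → (∀ i, Marked F (q i)) →
      sides q ≤ G → (F ⊔ sides q).Connected → G.IsHamiltonian := by
  classical
  intro m
  induction m with
  | zero =>
    intro F q hm _ _ _ _ _ hc
    obtain ⟨v⟩ := hc.nonempty
    have : 0 < Nat.card F.ConnectedComponent := by
      have : Nonempty F.ConnectedComponent := ⟨F.connectedComponentMk v⟩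
      exact Nat.card_pos
    omega
  | succ m ih =>
    intro F q hm hFG hF hq hmk hsG hc
    by_cases hall : ∀ i, F.Reachable (q i 0) (q i 2)
    · refine (cycle_of_connected hF { preconnected := fun x y => ?_, nonempty := hc.nonempty }).mono hFG
      · obtain ⟨w⟩ := hc.preconnected x y
        induction w with
        | nil => exact Reachable.refl _
        | @cons a b c hab _ ih' =>
          refine Reachable.trans ?_ ih'
          rcases hab with hab | hab
          · exact hab.reachable
          · obtain ⟨-, i, j, h⟩ := sides_adj.1 hab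
            have h0 : ∀ l, F.Reachable (q i 0) (q i l) := fun l => by
              fin_cases l
              · exact Reachable.refl _
              · exact (hmk i).1.reachable
              · exact hall i
              · exact (hall i).trans (hmk i).2.1.reachable
            rcases h with ⟨rfl, rfl⟩ | ⟨rfl, rfl⟩
            · exact (h0 j).symm.trans (h0 _)
            · exact (h0 _).symm.trans (h0 j)
    · push Not at hall
      obtain ⟨i, hi⟩ := hall
      obtain ⟨hab, hcd, hnbc, hnda⟩ := hmk i
      set a := q i 0 with ha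
      set b := q i 1 with hb
      set c := q i 2 with hc'
      set d := q i 3 with hd
      have hne : ∀ j j' : Fin 4, q i j = q i j' → j = j' := fun j j' h =>
        (Prod.ext_iff.1 (@hq (i, j) (i, j') h)).2
      set A : Set (Sym2 V) := {s(a, b), s(c, d)} with hA
      set F' := swapSides F a b c d with hF'
      have nab : a ≠ b := hab.ne
      have ncd : c ≠ d := hcd.ne
      have nac : a ≠ c := fun h => by simpa using hne 0 2 h
      have nad : a ≠ d := fun h => by simpa using hne 0 3 h
      have nbc : b ≠ c := fun h => by simpa using hne 1 2 h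
      have nbd : b ≠ d := fun h => by simpa using hne 1 3 h
      have hadj : ∀ x y, F'.Adj x y ↔ (F.Adj x y ∧ s(x, y) ∉ A) ∨
          ((s(x, y) = s(b, c) ∨ s(x, y) = s(d, a)) ∧ x ≠ y) := fun x y => by
        simp only [hF', swapSides, hA, sup_adj, deleteEdges_adj, fromEdgeSet_adj, Set.mem_insert_iff,
          Set.mem_singleton_iff]
      have hF2 : ∀ v, (F'.neighborSet v).ncard = 2 :=
        ncard_swapSides hF hab hcd hnbc hnda nac nad nbc nbd
      -- the two old sides are still joined
      have hkeep : ∀ {x y u w : V}, F.Adj x y → s(x, y) ∈ A → s(u, w) ∈ A →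
          (A = {s(x, y), s(u, w)}) → ¬ F.Reachable x u → F'.Reachable x y := by
        intro x y u w hxy _ _ hAeq hno
        obtain ⟨p⟩ := IsCycles.reachable_deleteEdges hxy (fun v _ => hF v)
        refine ⟨p.transfer F' fun e he => ?_⟩
        have he' := p.edges_subset_edgeSet he
        induction e using Sym2.inductionOn with
        | _ s t =>
          rw [mem_edgeSet, deleteEdges_adj, Set.mem_singleton_iff] at he'
          rw [mem_edgeSet, hadj]
          refine Or.inl ⟨he'.1, ?_⟩
          rw [hAeq]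
          rintro (h | h)
          · exact he'.2 h
          · apply hno
            have h' : s(u, w) ∈ p.edges := by rw [Set.mem_singleton_iff] at h; rwa [← h]
            have hu := p.fst_mem_support_of_mem_edges h'
            exact ((p.takeUntil u hu).reachable).mono (deleteEdges_le _)
      have rab : F'.Reachable a b := hkeep hab (Or.inl rfl) (Or.inr rfl) rfl hi
      have rcd : F'.Reachable c d := hkeep hcd (Or.inr rfl) (Or.inl rfl) (Set.pair_comm _ _)
        fun h => hi h.symm
      have hmono : ∀ x y, F.Reachable x y → F'.Reachable x y := by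
        rintro x y ⟨w⟩
        induction w with
        | nil => exact Reachable.refl _
        | @cons u v z huv _ ih' =>
          refine Reachable.trans ?_ ih'
          by_cases hs : s(u, v) ∈ A
          · simp only [hA, Set.mem_insert_iff, Set.mem_singleton_iff, Sym2.eq_iff] at hs
            rcases hs with (⟨rfl, rfl⟩ | ⟨rfl, rfl⟩) | ⟨rfl, rfl⟩ | ⟨rfl, rfl⟩
            · exact rab
            · exact rab.symm
            · exact rcd
            · exact rcd.symm
          · exact ((hadj u v).2 (Or.inl ⟨huv, hs⟩)).reachable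
      have rac : F'.Reachable a c :=
        rab.trans ((hadj b c).2 (Or.inr ⟨Or.inl rfl, nbc⟩)).reachable
      let φ : F.ConnectedComponent → F'.ConnectedComponent :=
        ConnectedComponent.lift (fun x => F'.connectedComponentMk x)
          fun x y p _ => ConnectedComponent.eq.2 (hmono x y p.reachable)
      have hφ : Function.Surjective φ := fun C => by
        induction C using ConnectedComponent.ind with
        | _ x => exact ⟨F.connectedComponentMk x, rfl⟩
      have hφn : ¬ Function.Injective φ := fun hinj => hi <| ConnectedComponent.eq.1 <|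
        hinj (a₁ := F.connectedComponentMk a) (a₂ := F.connectedComponentMk c)
          (ConnectedComponent.eq.2 rac)
      have hlt : Nat.card F'.ConnectedComponent < Nat.card F.ConnectedComponent := by
        let _ := Fintype.ofFinite F.ConnectedComponent
        let _ := Fintype.ofFinite F'.ConnectedComponent
        rw [Nat.card_eq_fintype_card, Nat.card_eq_fintype_card]
        exact Fintype.card_lt_of_surjective_not_injective φ hφ hφn
      set q' : ι → Fin 4 → V := fun l j => if l = i then q l (j + 1) else q l j with hq'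
      have hside : sides q' = sides q := by
        ext x y
        simp only [sides_adj, hq']
        refine and_congr_right fun _ => exists_congr fun l => ?_
        by_cases hl : l = i
        · simp only [if_pos hl]
          constructor
          · rintro ⟨j, h⟩; exact ⟨j + 1, h⟩
          · rintro ⟨j, h⟩; exact ⟨j - 1, by simpa using h⟩
        · simp only [if_neg hl]
      refine ih F' q' (by omega) ?_ hF2 ?_ (fun l => ?_) (hside ▸ hsG) ?_
      · intro x y h
        rcases (hadj x y).1 h with ⟨h, -⟩ | ⟨h, -⟩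
        · exact hFG h
        · have hb' : G.Adj b c := hsG (sides_adj.2 ⟨nbc, i, 1, Or.inl ⟨rfl, rfl⟩⟩)
          have hd' : G.Adj d a := hsG (sides_adj.2 ⟨nad.symm, i, 3, Or.inl ⟨rfl, rfl⟩⟩)
          rcases h with h | h <;> rcases Sym2.eq_iff.1 h with ⟨rfl, rfl⟩ | ⟨rfl, rfl⟩
          · exact hb'
          · exact hb'.symm
          · exact hd'
          · exact hd'.symm
      · rintro ⟨l, j⟩ ⟨l', j'⟩ h
        simp only [hq'] at h
        split_ifs at h <;>
        · have h' := Prod.ext_iff.1 (hq (a₁ := (_, _)) (a₂ := (_, _)) h)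
          simp_all
      · by_cases hl : l = i
        · simp only [Marked, hq', if_pos hl]
          rw [hl]
          exact marked_swapSides nab nac nad nbc nbd ncd
        · have hdis : ∀ j j', q l j ≠ q i j' := fun j j' h =>
            hl (Prod.ext_iff.1 (@hq (l, j) (i, j') h)).1
          have he : ∀ j y, F'.Adj (q l j) y ↔ F.Adj (q l j) y := fun j y =>
            swapSides_of_notMem F ⟨hdis j 0, hdis j 1, hdis j 2, hdis j 3⟩
          simp only [Marked, hq', if_neg hl, he]
          exact hmk l
      · refine hc.mono ?_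
        intro x y h
        rcases h with h | h
        · by_cases hs : s(x, y) ∈ A
          · refine Or.inr ?_
            rw [hside, sides_adj]
            refine ⟨h.ne, i, ?_⟩
            simp only [hA, Set.mem_insert_iff, Set.mem_singleton_iff, Sym2.eq_iff] at hs
            rcases hs with (⟨rfl, rfl⟩ | ⟨rfl, rfl⟩) | ⟨rfl, rfl⟩ | ⟨rfl, rfl⟩
            · exact ⟨0, Or.inl ⟨rfl, rfl⟩⟩
            · exact ⟨0, Or.inr ⟨rfl, rfl⟩⟩
            · exact ⟨2, Or.inl ⟨rfl, rfl⟩⟩
            · exact ⟨2, Or.inr ⟨rfl, rfl⟩⟩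
          · exact Or.inl ((hadj x y).2 (Or.inl ⟨h, hs⟩))
        · exact Or.inr (by rw [hside]; exact h)

theorem result :
    (∀ (V : Type) [Fintype V] [DecidableEq V] (G F : SimpleGraph V) (m : ℕ)
      (q : Fin m → Fin 4 → V),
        Function.Injective (fun x : Fin m × Fin 4 => q x.1 x.2) →
        F ≤ G → (∀ v, (F.neighborSet v).ncard = 2) →
        (∀ i, Marked F (q i)) → sides q ≤ G → (F ⊔ sides q).Connected → G.IsHamiltonian) ∧
    ∀ (V : Type) [Fintype V] [DecidableEq V] (G : SimpleGraph V) (m : ℕ) (q : Fin m → Fin 4 → V),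
      G.Connected → (∀ v, (G.neighborSet v).ncard = 3) →
      Function.Bijective (fun x : Fin m × Fin 4 => q x.1 x.2) → sides q ≤ G → G.IsHamiltonian := by
  classical
  refine ⟨fun V _ _ G F m q hq hFG hF hmk hs hc =>
    hamiltonian_of_linked G _ F q le_rfl hFG hF hq hmk hs hc,
    fun V _ _ G m q hG h3 hq hs => ?_⟩
  set E : Set (Sym2 V) := {e | ∃ i, e = s(q i 1, q i 2) ∨ e = s(q i 3, q i 0)} with hE
  set F := G.deleteEdges E with hF
  have hinj : ∀ i j i' j', q i j = q i' j' → i = i' ∧ j = j' := fun i j i' j' h =>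
    Prod.ext_iff.1 (@hq.1 (i, j) (i', j') h)
  have hside : ∀ i j, (sides q).Adj (q i j) (q i (j + 1)) := fun i j =>
    sides_adj.2 ⟨fun h => by have := (hinj _ _ _ _ h).2; simp at this, i, j, Or.inl ⟨rfl, rfl⟩⟩
  have hEs : ∀ x y, s(x, y) ∈ E → (sides q).Adj x y := by
    rintro x y ⟨i, h | h⟩ <;> rcases Sym2.eq_iff.1 h with ⟨rfl, rfl⟩ | ⟨rfl, rfl⟩
    · exact hside i 1
    · exact (hside i 1).symm
    · exact hside i 3
    · exact (hside i 3).symm
  refine hamiltonian_of_linked G _ F q le_rfl (deleteEdges_le _) (fun v => ?_) hq.1 (fun i => ?_) hs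
    (hG.mono fun x y h => ?_)
  · obtain ⟨⟨i, j⟩, rfl⟩ := hq.2 v
    have hN : F.neighborSet (q i j) = G.neighborSet (q i j) \ {q i ((![3, 2, 1, 0] : Fin 4 → Fin 4) j)} := by
      ext y
      simp only [hF, mem_neighborSet, deleteEdges_adj, Set.mem_diff, Set.mem_singleton_iff, hE,
        Set.mem_setOf_eq]
      refine and_congr_right fun _ => not_congr ⟨?_, ?_⟩
      · rintro ⟨i', h | h⟩ <;> rcases Sym2.eq_iff.1 h with ⟨h1, h2⟩ | ⟨h1, h2⟩ <;>
          obtain ⟨rfl, rfl⟩ := hinj _ _ _ _ h1 <;> simpa using h2
      · intro h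
        refine ⟨i, ?_⟩
        subst h
        fin_cases j <;> simp [Sym2.eq_swap]
    have hmem : G.Adj (q i j) (q i ((![3, 2, 1, 0] : Fin 4 → Fin 4) j)) := by
      fin_cases j
      · exact hs (hside i 3).symm
      · exact hs (hside i 1)
      · exact hs (hside i 1).symm
      · exact hs (hside i 3)
    rw [hN, Set.ncard_sdiff_singleton_of_mem (show _ ∈ G.neighborSet (q i j) from hmem), h3]
  · simp only [Marked, hF, deleteEdges_adj]
    refine ⟨⟨hs (hside i 0), ?_⟩, ⟨hs (hside i 2), ?_⟩, fun h => h.2 ⟨i, Or.inl rfl⟩,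
      fun h => h.2 ⟨i, Or.inr rfl⟩⟩
    all_goals
      rintro ⟨i', h | h⟩ <;> rcases Sym2.eq_iff.1 h with ⟨h1, h2⟩ | ⟨h1, h2⟩
    all_goals
      have e1 := (hinj _ _ _ _ h1).2
      simp at e1
      try (have e2 := (hinj _ _ _ _ h2).2; simp at e2)
  · by_cases he : s(x, y) ∈ E
    · exact Or.inr (hEs x y he)
    · exact Or.inl (deleteEdges_adj.2 ⟨h, he⟩)

end Vale.Agent.Results.P039.SquareLinked
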